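import Vale.Agent.P286EI.Wey
import Vale.Agent.P286E48.Wa

/-!
# Differential operators on a product
-/

set_option linter.all false

namespace Vale.Agent.P286E73

open TensorProduct MvPolynomial Vale.Agent.P286EI Vale.Agent.P286E48

noncomputable section

section Wt

variable {R S : Type} [Ring R] [Algebra ℂ R] [Ring S] [Algebra ℂ S]

theorem wt_indep (E : R) : iSupIndep (wt E) :=
  (Module.End.eigenspaces_iSupIndep _).comp (f := fun k : ℤ => (k : ℂ)) Int.cast_injective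

/-- The elements of weight `k` on which `ψ` is `c ^ k j`. -/
def wv (E : R) (ψ j : R →ₐ[ℂ] S) (c : Sˣ) (k : ℤ) : Submodule ℂ R :=
  wt E k ⊓ LinearMap.ker (ψ.toLinearMap - (LinearMap.mulLeft ℂ ((c ^ k : Sˣ) : S)).comp j.toLinearMap)

variable {E : R} {ψ j : R →ₐ[ℂ] S} {c : Sˣ}

theorem mem_wv {k : ℤ} {x : R} :
    x ∈ wv E ψ j c k ↔ x ∈ wt E k ∧ ψ x = ((c ^ k : Sˣ) : S) * j x :=
  and_congr Iff.rfl sub_eq_zero

theorem zpow_comm {x : S} (h : (c : S) * x = x * c) (k : ℤ) :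
    ((c ^ k : Sˣ) : S) * x = x * ((c ^ k : Sˣ) : S) :=
  (Commute.units_zpow_left (show Commute (c : S) x from h) k).eq

/-- The sum of the good parts is a subalgebra. -/
def wg (E : R) (ψ j : R →ₐ[ℂ] S) (c : Sˣ) (h : ∀ x, (c : S) * j x = j x * c) : Subalgebra ℂ R :=
  Submodule.toSubalgebra (⨆ k, wv E ψ j c k)
    (Submodule.mem_iSup_of_mem 0 (mem_wv.2 ⟨wt_one E, by simp⟩)) fun x y hx hy => by
    refine Submodule.iSup_induction (motive := fun x => x * y ∈ ⨆ k, wv E ψ j c k) _ hx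
      (fun k x hx => ?_) (by simp) (fun x x' h h' => by rw [add_mul]; exact add_mem h h')
    refine Submodule.iSup_induction (motive := fun y => x * y ∈ ⨆ k, wv E ψ j c k) _ hy
      (fun l y hy => ?_) (by simp) (fun y y' h h' => by rw [mul_add]; exact add_mem h h')
    refine Submodule.mem_iSup_of_mem (k + l)
      (mem_wv.2 ⟨wt_mul (mem_wv.1 hx).1 (mem_wv.1 hy).1, ?_⟩)
    rw [map_mul, (mem_wv.1 hx).2, (mem_wv.1 hy).2, map_mul, zpow_add, Units.val_mul, mul_assoc,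
      ← mul_assoc (j x), ← zpow_comm (h x) l]
    simp only [mul_assoc]

theorem mem_wg {h : ∀ x, (c : S) * j x = j x * c} {k : ℤ} {x : R} (hx : x ∈ wt E k)
    (e : ψ x = ((c ^ k : Sˣ) : S) * j x) : x ∈ wg E ψ j c h :=
  Submodule.mem_iSup_of_mem k (mem_wv.2 ⟨hx, e⟩)

theorem wt_sup_of {h : ∀ x, (c : S) * j x = j x * c} (hg : ∀ x, x ∈ wg E ψ j c h) :
    ⨆ k, wt E k = ⊤ :=
  eq_top_iff.2 fun x _ => (iSup_mono fun _ => inf_le_left : (⨆ k, wv E ψ j c k) ≤ _) (hg x)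

theorem eq_of_wg {h : ∀ x, (c : S) * j x = j x * c} (hg : ∀ x, x ∈ wg E ψ j c h) {k : ℤ} {x : R}
    (hx : x ∈ wt E k) : ψ x = ((c ^ k : Sˣ) : S) * j x := by
  have e : wv E ψ j c = wt E := ((wt_indep E).le_iff_eq_of_iSup_eq_top
    (eq_top_iff.2 fun x _ => hg x)).1 fun _ => inf_le_left
  exact (mem_wv.1 (e ▸ hx : x ∈ wv E ψ j c k)).2

end Wt

variable {ι B B' : Type} [CommRing B] [Algebra ℂ B] [CommRing B'] [Algebra ℂ B'] [DecidableEq ι]

/-- The differential operators on the curve. -/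
abbrev DC (pd : Derivation ℂ B B) : Type := DO fun _ : Unit => pd

/-- The Weyl algebra. -/
abbrev D0 (ι : Type) : Type :=
  DO fun a : ι => (pderiv a : Derivation ℂ (MvPolynomial ι ℂ) (MvPolynomial ι ℂ))

/-- The coordinates. -/
def x0 (a : ι) : D0 ι := DO.of _ (X a)

/-- The derivatives. -/
def d0 (a : ι) : D0 ι := DO.D _ a

theorem d0_x0 (a b : ι) : d0 a * x0 b = x0 b * d0 a + if a = b then 1 else 0 := by
  rw [d0, x0, DO.D_of, pderiv_X, Pi.single_apply, apply_ite (DO.of _), map_one, map_zero]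
  simp only [eq_comm]

theorem D0_ind {P : D0 ι → Prop} (h0 : ∀ c, P (algebraMap ℂ _ c)) (h1 : ∀ a, P (x0 a))
    (h2 : ∀ a, P (d0 a)) (add : ∀ x y, P x → P y → P (x + y))
    (mul : ∀ x y, P x → P y → P (x * y)) (x : D0 ι) : P x := by
  refine DO.ind (fun p => ?_) h2 add mul x
  induction p using MvPolynomial.induction_on with
  | C c => rw [← algebraMap_eq, AlgHom.commutes]; exact h0 c
  | add p q hp hq => rw [map_add]; exact add _ _ hp hq
  | mul_X p a hp => rw [map_mul]; exact mul _ _ hp (h1 a)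

theorem D0_ext {A : Type} [Ring A] [Algebra ℂ A] {φ ψ : D0 ι →ₐ[ℂ] A}
    (h1 : ∀ a, φ (x0 a) = ψ (x0 a)) (h2 : ∀ a, φ (d0 a) = ψ (d0 a)) : φ = ψ :=
  AlgHom.ext fun x => D0_ind (P := fun x => φ x = ψ x)
    (fun c => by rw [AlgHom.commutes, AlgHom.commutes]) h1 h2
    (fun x y hx hy => by rw [map_add, map_add, hx, hy])
    (fun x y hx hy => by rw [map_mul, map_mul, hx, hy]) x

variable (ι) (pd : Derivation ℂ B B)

/-- The operators on the curve. -/
def jC : DC pd →ₐ[ℂ] DW ι pd :=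
  DO.lift (DW.cf ι pd) (fun _ => DW.du ι pd) (fun _ _ => rfl) fun _ => DW.du_cf

/-- The polynomials with constant coefficients. -/
def jP : MvPolynomial ι ℂ →ₐ[ℂ] DW ι pd :=
  (DO.of _).comp (MvPolynomial.mapAlgHom (Algebra.ofId ℂ B))

theorem jP_X (a : ι) : jP ι pd (X a) = DW.y pd a :=
  congrArg (DO.of _) (MvPolynomial.map_X _ a)

/-- The operators on the affine space. -/
def jD : D0 ι →ₐ[ℂ] DW ι pd :=
  DO.lift (jP ι pd) (DW.d pd) DW.d_d fun k => br_ind _ _ _ (fun z => by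
      rw [derivation_C, map_zero, add_zero, ← algebraMap_eq, AlgHom.commutes, Algebra.commutes])
    fun a => by
      rw [jP_X, DW.d_y, pderiv_X, Pi.single_apply, apply_ite (jP ι pd), map_one, map_zero]
      simp only [eq_comm]

variable {ι pd}

theorem jC_of (z : B) : jC ι pd (DO.of _ z) = DW.cf ι pd z := DO.lift_of _ _ _ _ z

theorem jC_D : jC ι pd (DO.D _ ()) = DW.du ι pd := DO.lift_D _ _ _ _ _

theorem jD_x (a : ι) : jD ι pd (x0 a) = DW.y pd a := (DO.lift_of _ _ _ _ _).trans (jP_X ι pd a)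

theorem jD_d (a : ι) : jD ι pd (d0 a) = DW.d pd a := DO.lift_D _ _ _ _ a

theorem comm_jD {w : DW ι pd} (h1 : ∀ a, w * DW.y pd a = DW.y pd a * w)
    (h2 : ∀ a, w * DW.d pd a = DW.d pd a * w) (x : D0 ι) : w * jD ι pd x = jD ι pd x * w :=
  D0_ind (P := fun x => w * jD ι pd x = jD ι pd x * w)
    (fun c => by rw [AlgHom.commutes, Algebra.commutes]) (fun a => by rw [jD_x, h1])
    (fun a => by rw [jD_d, h2]) (fun x y hx hy => by rw [map_add, mul_add, add_mul, hx, hy])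
    (fun x y hx hy => by rw [map_mul, ← mul_assoc, hx, mul_assoc, hy, mul_assoc]) x

theorem cf_jD (z : B) (x : D0 ι) : DW.cf ι pd z * jD ι pd x = jD ι pd x * DW.cf ι pd z :=
  comm_jD (fun a => (DW.y_cf a z).symm) (fun a => (DW.d_cf a z).symm) x

theorem du_jD (x : D0 ι) : DW.du ι pd * jD ι pd x = jD ι pd x * DW.du ι pd :=
  comm_jD DW.du_y DW.du_d x

theorem jC_jD (z : DC pd) (x : D0 ι) : jC ι pd z * jD ι pd x = jD ι pd x * jC ι pd z :=
  DO.ind (P := fun z => jC ι pd z * jD ι pd x = jD ι pd x * jC ι pd z)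
    (fun a => by rw [jC_of, cf_jD]) (fun _ => by rw [jC_D, du_jD])
    (fun u v hu hv => by rw [map_add, mul_add, add_mul, hu, hv])
    (fun u v hu hv => by rw [map_mul, mul_assoc, hv, ← mul_assoc, hu, mul_assoc]) z

variable (ι pd)

/-- The product of the operators. -/
def jT : DC pd ⊗[ℂ] D0 ι →ₐ[ℂ] DW ι pd := Algebra.TensorProduct.lift (jC ι pd) (jD ι pd) jC_jD

theorem rel_T : DW.Rel pd ((Algebra.TensorProduct.includeLeft : DC pd →ₐ[ℂ] DC pd ⊗[ℂ] D0 ι).comp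
    (DO.of _)) (fun a => (1 : DC pd) ⊗ₜ[ℂ] x0 a) (fun a => (1 : DC pd) ⊗ₜ[ℂ] d0 a)
    (DO.D _ () ⊗ₜ[ℂ] (1 : D0 ι)) where
  yy a b := by simp only [Algebra.TensorProduct.tmul_mul_tmul, x0, DO.of_of (X a)]
  yc a z := by simp
  dd a b := by simp only [Algebra.TensorProduct.tmul_mul_tmul, d0, DO.D_D a]
  dc a z := by simp
  dy a b := by
    simp only [Algebra.TensorProduct.tmul_mul_tmul, d0_x0, tmul_add]
    split_ifs <;> simp [Algebra.TensorProduct.one_def]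
  uc z := by simp [DO.D_of, add_tmul]
  uy a := by simp
  ud a := by simp

/-- The inverse. -/
def jI : DW ι pd →ₐ[ℂ] DC pd ⊗[ℂ] D0 ι := DW.lift (rel_T ι pd)

variable {ι pd}

theorem jT_tmul (z : DC pd) (x : D0 ι) : jT ι pd (z ⊗ₜ[ℂ] x) = jC ι pd z * jD ι pd x := rfl

theorem jI_jC (z : DC pd) : jI ι pd (jC ι pd z) = z ⊗ₜ[ℂ] 1 :=
  AlgHom.congr_fun (DO.hom_ext (φ := (jI ι pd).comp (jC ι pd))
    (ψ := Algebra.TensorProduct.includeLeft)
    (fun a => (congrArg _ (jC_of a)).trans (DW.lift_cf _ a))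
    fun _ => (congrArg _ jC_D).trans (DW.lift_du _)) z

theorem jI_jD (x : D0 ι) : jI ι pd (jD ι pd x) = 1 ⊗ₜ[ℂ] x :=
  AlgHom.congr_fun (D0_ext (φ := (jI ι pd).comp (jD ι pd))
    (ψ := Algebra.TensorProduct.includeRight)
    (fun a => (congrArg _ (jD_x a)).trans (DW.lift_y _ a))
    fun a => (congrArg _ (jD_d a)).trans (DW.lift_d _ a)) x

theorem jI_jT (z : DC pd ⊗[ℂ] D0 ι) : jI ι pd (jT ι pd z) = z := by
  induction z using TensorProduct.induction_on with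
  | zero => simp
  | tmul z x => rw [jT_tmul, map_mul, jI_jC, jI_jD]; simp
  | add x y hx hy => simp only [map_add, hx, hy]

theorem jT_jI (w : DW ι pd) : jT ι pd (jI ι pd w) = w :=
  AlgHom.congr_fun (DW.hom_ext (φ := (jT ι pd).comp (jI ι pd)) (ψ := AlgHom.id ℂ _)
    (fun z => by rw [AlgHom.comp_apply, ← jC_of, jI_jC, jT_tmul, map_one, mul_one]; rfl)
    (fun a => by rw [AlgHom.comp_apply, ← jD_x, jI_jD, jT_tmul, map_one, one_mul]; rfl)
    (fun a => by rw [AlgHom.comp_apply, ← jD_d, jI_jD, jT_tmul, map_one, one_mul]; rfl)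
    (by rw [AlgHom.comp_apply, ← jC_D, jI_jC, jT_tmul, map_one, mul_one]; rfl)) w

variable (ι pd) in
/-- The operators on the product. -/
def jE : DC pd ⊗[ℂ] D0 ι ≃ₐ[ℂ] DW ι pd :=
  AlgEquiv.ofAlgHom (jT ι pd) (jI ι pd) (AlgHom.ext jT_jI) (AlgHom.ext jI_jT)

theorem jE_apply (z : DC pd ⊗[ℂ] D0 ι) : jE ι pd z = jT ι pd z := rfl

variable [Fintype ι]

variable (ι) in
/-- The Euler field. -/
def E0 : D0 ι := ∑ a, x0 a * d0 a

theorem jD_E0 : jD ι pd (E0 ι) = DW.Eu ι pd := by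
  simp only [E0, map_sum, map_mul, jD_x, jD_d, DW.Eu]

theorem jD_inj [Nontrivial (DC pd)] : Function.Injective (jD ι pd) := fun x y h => by
  have h1 := congrArg (jI ι pd) h
  rw [jI_jD, jI_jD] at h1
  exact Algebra.TensorProduct.includeRight_injective (FaithfulSMul.algebraMap_injective ℂ _) h1

theorem x0_wt (a : ι) : x0 a ∈ wt (E0 ι) 1 := by
  rw [mem_wt, E0, Finset.sum_mul, Finset.mul_sum, ← Finset.sum_sub_distrib,
    Finset.sum_eq_single a, mul_assoc, d0_x0, if_pos rfl, mul_add, mul_one, ← mul_assoc,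
    add_sub_cancel_left, Int.cast_one, one_smul]
  · intro b _ hb
    rw [mul_assoc, d0_x0, if_neg hb, add_zero, ← mul_assoc, ← mul_assoc, x0, x0, DO.of_of, sub_self]
  · exact fun h => absurd (Finset.mem_univ a) h

theorem d0_wt (a : ι) : d0 a ∈ wt (E0 ι) (-1) := by
  have hd : ∀ b : ι, d0 b * d0 a = d0 a * d0 b := fun b => DO.D_D b a
  rw [mem_wt, E0, Finset.sum_mul, Finset.mul_sum, ← Finset.sum_sub_distrib,
    Finset.sum_eq_single a, ← mul_assoc, d0_x0, if_pos rfl, add_mul, one_mul, sub_add_cancel_left,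
    Int.cast_neg, Int.cast_one, neg_smul, one_smul]
  · intro b _ hb
    rw [← mul_assoc (d0 a), d0_x0, if_neg (Ne.symm hb), add_zero, mul_assoc, hd, mul_assoc, sub_self]
  · exact fun h => absurd (Finset.mem_univ a) h

variable {pd' : Derivation ℂ B' B'}

/-- The unit `c` as an operator. -/
def cu (ι : Type) [DecidableEq ι] (pd : Derivation ℂ B B) (c : Bˣ) : (DW ι pd)ˣ :=
  Units.map (DW.cf ι pd : B →* DW ι pd) c

theorem cu_zpow (c : Bˣ) (k : ℤ) :
    ((cu ι pd c ^ k : (DW ι pd)ˣ) : DW ι pd) = DW.cf ι pd ((c ^ k : Bˣ) : B) := by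
  rw [cu, ← map_zpow]
  rfl

theorem all_wg (t : DW.Tr ι pd pd') (hg : t.g = 1) (x : D0 ι) :
    x ∈ wg (E0 ι) ((DW.map t).comp (jD ι pd)) (jD ι pd') (cu ι pd' t.c) (cf_jD _) :=
  D0_ind (P := fun x => x ∈ wg (E0 ι) ((DW.map t).comp (jD ι pd)) (jD ι pd') (cu ι pd' t.c)
      (cf_jD _)) (fun c => Subalgebra.algebraMap_mem _ c)
    (fun a => mem_wg (x0_wt a) (by
      rw [AlgHom.comp_apply, jD_x, jD_x, DW.map_y, hg, DW.lc_one, cu_zpow, zpow_one]))
    (fun a => mem_wg (d0_wt a) (by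
      rw [AlgHom.comp_apply, jD_d, jD_d, DW.map_d, hg, DW.lc_one, cu_zpow, zpow_neg_one]))
    (fun _ _ => add_mem) (fun _ _ => mul_mem) x

/-- The change of coordinates on an operator of weight `k`. -/
theorem map_jD (t : DW.Tr ι pd pd') (hg : t.g = 1) {k : ℤ} {x : D0 ι} (hx : x ∈ wt (E0 ι) k) :
    DW.map t (jD ι pd x) = DW.cf ι pd' ((t.c ^ k : B'ˣ) : B') * jD ι pd' x :=
  (eq_of_wg (all_wg t hg) hx).trans (by rw [cu_zpow])

theorem E0_sup : ⨆ k, wt (E0 ι) k = ⊤ :=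
  wt_sup_of (all_wg (ι := ι) (pd := (0 : Derivation ℂ ℂ ℂ)) (pd' := 0)
    ⟨AlgHom.id ℂ ℂ, 1, 1, 0, fun _ => by simp, by simp, fun _ _ => rfl⟩ rfl)

end

end Vale.Agent.P286E73
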