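import Vale.Agent.P286E73.Phi
import Vale.Agent.P286EX5.Rb

/-!
# The product and the differential on the ghosts, in the form used for the right action
-/

set_option linter.all false

namespace Vale.Agent.P286E73

open Vale.Agent.P286EI Vale.Agent.P286EL Vale.Agent.P286EX

noncomputable section

variable (M : Type) [Ring M] [Algebra ℂ M]

/-- The product. -/
def prM : Ra.Pr M := ⟨(· * ·), add_mul, L3.wg_mul, L3.inl_mul⟩

theorem prM_mul (x y : L3 M) : (prM M).mul x y = x * y := rfl

variable {M} {κ : ℂ} {μ : Fin 3 → M}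

theorem br_neg (h : Br κ μ) (a b : Fin 3) (x : M) :
    LinearMap.mulRight ℂ (-μ a) (LinearMap.mulRight ℂ (-μ b) x) -
      LinearMap.mulRight ℂ (-μ b) (LinearMap.mulRight ℂ (-μ a) x) =
      ∑ c, (κ * eps a b c) • LinearMap.mulRight ℂ (-μ c) x := by
  simp only [LinearMap.mulRight_apply, mul_neg, neg_mul, neg_neg, smul_neg, Finset.sum_neg_distrib,
    ← mul_smul_comm, ← Finset.mul_sum, ← h a b, mul_assoc, mul_sub, neg_sub]

/-- The differential. -/
def ceM (h : Br κ μ) : Gl.CE κ fun a => LinearMap.mulRight ℂ (-μ a) :=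
  ⟨dL κ _, lieL κ _, dL_inl κ _, dL_wg κ _, lieL_inl κ _, lieL_wg κ _, dL_dL (br_neg h),
    dL_mem κ _⟩

theorem ceM_d (h : Br κ μ) (x : L3 M) : (ceM h).d x = dL κ (fun a => L3.rm M (-μ a)) x := rfl

end

end Vale.Agent.P286E73
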