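import Vale.Agent.P286E73.Io
import Vale.Agent.P286EX7.Br1

/-!
# The scalar extension of the invariants as a homomorphism
-/

set_option linter.all false

namespace Vale.Agent.P286E73

open TensorProduct Vale.Agent.P286EI Vale.Agent.P286EL Vale.Agent.P286E48

noncomputable section

variable {C M M' : Type} [Ring C] [Algebra ℂ C] [Ring M] [Algebra ℂ M] [Ring M'] [Algebra ℂ M']

theorem pc_ext {N : Type} [AddCommGroup N] [Module ℂ N] {x y : L3 N}
    (h : ∀ S, pc N S x = pc N S y) : x = y := (L3.co ℂ N).injective (funext h)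

theorem pc_wt {E : M} {k : ℤ} {x : L3 M} (h : x ∈ wt (L3.inl ℂ M E) k) (S : Finset (Fin 3)) :
    pc M S x ∈ wt E k :=
  wt_map (pc M S) (fun y => by rw [map_sub, L3.inl_mul, L3.mul_inl, pc_map, pc_map]; rfl) h

theorem map_wt {N : Type} [AddCommGroup N] [Module ℂ N] {f g : M →ₗ[ℂ] N} {E : M} {k : ℤ}
    (h : ∀ z ∈ wt E k, f z = g z) {x : L3 M} (hx : x ∈ wt (L3.inl ℂ M E) k) :
    L3.map f x = L3.map g x :=
  pc_ext fun S => by rw [pc_map, pc_map, h _ (pc_wt hx S)]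

/-- The defect of invariance. -/
def dfI (κ : ℂ) (m : Fin 3 → M) (a : Fin 3) : L3 M →ₗ[ℂ] L3 M :=
  L3.map (adj (-m a)) + κ • L3.ad ℂ M a

theorem dfI_apply (κ : ℂ) (m : Fin 3 → M) (a : Fin 3) (z : L3 M) :
    dfI κ m a z = L3.map (adj (-m a)) z + κ • L3.ad ℂ M a z := rfl

theorem dfI_eq (κ : ℂ) (m : Fin 3 → M) (a : Fin 3) (z : L3 M) :
    dfI κ m a z = lieL κ (fun a => L3.rm M (m a)) a z - L3.inl ℂ M (m a) * z := by
  have e : adj (-m a) = L3.rm M (m a) - LinearMap.mulLeft ℂ (m a) := LinearMap.ext fun x => by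
    rw [adj_apply, neg_mul, mul_neg, sub_neg_eq_add, neg_add_eq_sub]
    rfl
  rw [dfI_apply, lieL_apply, L3.inl_mul, add_sub_right_comm, e]
  rfl

theorem inv_iff {κ : ℂ} {m : Fin 3 → M} {z : L3 M} : Inv κ m z ↔ ∀ a, dfI κ m a z = 0 :=
  forall_congr' fun a => by rw [dfI_eq, sub_eq_zero]

theorem inv_neg {κ : ℂ} {μ : Fin 3 → M} {z : L3 M} :
    Inv κ (fun a => -μ a) z ↔ ∀ a, L3.map (adj (μ a)) z + κ • L3.ad ℂ M a z = 0 :=
  inv_iff.trans (forall_congr' fun a => by rw [dfI_apply, neg_neg])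

namespace TQ

variable (T : TQ C M M')

theorem inl_map (c : C) (x : L3 M) :
    L3.inl ℂ M' (T.α c) * L3.map T.β.toLinearMap x = L3.map (T.g c) x := L3.inl_mul _ _

theorem map_inl' (c : C) (x : L3 M) :
    L3.map T.β.toLinearMap x * L3.inl ℂ M' (T.α c) = L3.map (T.g c) x :=
  (L3.mul_inl _ _).trans (map3_congr (f := (L3.rm M' (T.α c)).comp T.β.toLinearMap)
    (g := T.g c) (fun z => (T.comm c z).symm) x)

variable {A : Type} [Ring A] [Algebra ℂ A] (ι : A →ₐ[ℂ] L3 M)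

/-- The scalar extension of a subalgebra. -/
def ia : C ⊗[ℂ] A →ₐ[ℂ] L3 M' :=
  Algebra.TensorProduct.lift ((L3.inA M').comp T.α) ((L3.mapA T.β).comp ι) fun c a =>
    (T.inl_map c (ι a)).trans (T.map_inl' c (ι a)).symm

theorem ia_tmul (c : C) (a : A) : T.ia ι (c ⊗ₜ[ℂ] a) = L3.map (T.g c) (ι a) := T.inl_map c (ι a)

theorem ia_eq (z : C ⊗[ℂ] A) : T.ia ι z = T.io ι.toLinearMap z := by
  induction z using TensorProduct.induction_on with
  | zero => rw [map_zero, map_zero]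
  | tmul c a => exact T.ia_tmul ι c a
  | add x y hx hy => rw [map_add, map_add, hx, hy]

theorem ia_inl (c : C) {a : A} {x : M} (h : ι a = L3.inl ℂ M x) :
    T.ia ι (c ⊗ₜ[ℂ] a) = L3.inl ℂ M' (T.α c * T.β x) := by
  rw [ia_tmul, h, L3.map_inl, g_apply]

theorem ia_left (c : C) : T.ia ι (c ⊗ₜ[ℂ] 1) = L3.inl ℂ M' (T.α c) := by
  rw [T.ia_inl ι c (map_one ι), map_one, mul_one]

theorem ia_right (a : A) : T.ia ι (1 ⊗ₜ[ℂ] a) = L3.map T.β.toLinearMap (ι a) :=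
  (T.ia_tmul ι 1 a).trans (map3_congr T.g_one _)

variable {ι}

theorem ia_inj (h : Function.Injective ι) : Function.Injective (T.ia ι) := fun x y e =>
  T.io_inj (ι := ι.toLinearMap) h (by rw [← ia_eq, ← ia_eq, e])

theorem ia_nat {f : A →ₗ[ℂ] A} {f0 : L3 M →ₗ[ℂ] L3 M} {f' : L3 M' →ₗ[ℂ] L3 M'}
    (h0 : ∀ a, ι (f a) = f0 (ι a))
    (h : ∀ c x, L3.map (T.g c) (f0 x) = f' (L3.map (T.g c) x)) (z : C ⊗[ℂ] A) :
    T.ia ι (f.lTensor C z) = f' (T.ia ι z) := by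
  induction z using TensorProduct.induction_on with
  | zero => simp
  | tmul c x => rw [LinearMap.lTensor_tmul, ia_tmul, ia_tmul, h0, h]
  | add x y hx hy => simp only [map_add, hx, hy]

variable {κ : ℂ} {m : Fin 3 → M} {m' : Fin 3 → M'} (hm : ∀ a, T.β (m a) = m' a)

include hm

theorem g_dL (c : C) (x : L3 M) : L3.map (T.g c) (dL κ (fun a => L3.rm M (m a)) x) =
    dL κ (fun a => L3.rm M' (m' a)) (L3.map (T.g c) x) :=
  map_dL _ (fun a x => by rw [L3.rm_apply, L3.rm_apply, g_r, hm]) x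

theorem g_dfI (a : Fin 3) (c : C) (x : L3 M) :
    L3.map (T.g c) (dfI κ m a x) = dfI κ m' a (L3.map (T.g c) x) := by
  rw [dfI_apply, dfI_apply, map_add, map_smul, L3.map_ad, map_map3, map_map3]
  exact congrArg (· + _) (map3_congr (fun z => by
    rw [LinearMap.comp_apply, g_adj, map_neg, hm]; rfl) x)

theorem ia_inv (h0 : ∀ a, Inv κ m (ι a)) (z : C ⊗[ℂ] A) : Inv κ m' (T.ia ι z) :=
  inv_iff.2 fun a => by
    rw [ia_eq]
    exact T.io_L (T.g_dfI hm) (fun a x => inv_iff.1 (h0 x) a) a z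

theorem ia_sur (h0 : ∀ a, Inv κ m (ι a)) (h1 : ∀ y, Inv κ m y → ∃ a, ι a = y) (b : L3 M')
    (hb : Inv κ m' b) : ∃ z, T.ia ι z = b := by
  obtain ⟨z, hz⟩ := T.io_sur (ι := ι.toLinearMap) (T.g_dfI hm) (fun a x => inv_iff.1 (h0 x) a)
    (fun y hy => h1 y (inv_iff.2 hy)) b (inv_iff.1 hb)
  exact ⟨z, (T.ia_eq ι z).trans hz⟩

end TQ

end

end Vale.Agent.P286E73
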