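import Vale.Agent.P286E73.Tc
import Vale.Agent.P286EL.Bb

/-!
# The scalar extension of the invariants
-/

set_option linter.all false

namespace Vale.Agent.P286E73

open TensorProduct Vale.Agent.P286EI Vale.Agent.P286EL

noncomputable section

theorem map_map3 {N N' N'' : Type} [AddCommGroup N] [Module ℂ N] [AddCommGroup N'] [Module ℂ N']
    [AddCommGroup N''] [Module ℂ N''] (f : N →ₗ[ℂ] N') (g : N' →ₗ[ℂ] N'') (x : L3 N) :
    L3.map g (L3.map f x) = L3.map (g.comp f) x := rfl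

theorem map3_congr {N N' : Type} [AddCommGroup N] [Module ℂ N] [AddCommGroup N'] [Module ℂ N']
    {f g : N →ₗ[ℂ] N'} (h : ∀ z, f z = g z) (x : L3 N) : L3.map f x = L3.map g x :=
  congrArg (fun f => L3.map f x) (LinearMap.ext h)

variable {C M M' : Type} [Ring C] [Algebra ℂ C] [Ring M] [Algebra ℂ M] [Ring M'] [Algebra ℂ M']

theorem map_LB (g : M →ₗ[ℂ] M') (κ : ℂ) {μ : Fin 3 → M} {μ' : Fin 3 → M'}
    (h : ∀ a x, g (adj (μ a) x) = adj (μ' a) (g x)) (a : Fin 3) (x : L3 M) :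
    L3.map g (LB κ μ a x) = LB κ μ' a (L3.map g x) := by
  rw [LB_apply, LB_apply, map_smul, map_add, map_smul, L3.map_ad, map_map3, map_map3]
  exact congrArg (fun y => κ⁻¹ • (y + _)) (map3_congr (h a) x)

namespace TQ

variable (T : TQ C M M')

/-- The map `x ↦ α c β x`. -/
def g (c : C) : M →ₗ[ℂ] M' := T.μ.toLinearMap.comp (TensorProduct.mk ℂ C M c)

theorem g_apply (c : C) (x : M) : T.g c x = T.α c * T.β x := rfl

theorem g_one (x : M) : T.g 1 x = T.β x := by rw [g_apply, map_one, one_mul]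

theorem g_l (c : C) (m x : M) : T.g c (m * x) = T.β m * T.g c x := by
  rw [g_apply, g_apply, map_mul, ← mul_assoc, T.comm, mul_assoc]

theorem g_r (c : C) (m x : M) : T.g c (x * m) = T.g c x * T.β m := by
  rw [g_apply, g_apply, map_mul, mul_assoc]

theorem g_adj (c : C) (m x : M) : T.g c (adj m x) = adj (T.β m) (T.g c x) := by
  rw [adj_apply, adj_apply, map_sub, g_l, g_r]

/-- The decomposition with ghosts. -/
def t3 : C ⊗[ℂ] L3 M →ₗ[ℂ] L3 M' := ten T.μ.toLinearMap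

theorem t3_tmul (c : C) (x : L3 M) : T.t3 (c ⊗ₜ[ℂ] x) = L3.map (T.g c) x := rfl

theorem t3_inj : Function.Injective T.t3 := ten_inj T.μ_bij.1

theorem t3_sur : Function.Surjective T.t3 := ten_sur T.μ_bij.2

theorem t3_nat {f : L3 M →ₗ[ℂ] L3 M} {f' : L3 M' →ₗ[ℂ] L3 M'}
    (h : ∀ c x, L3.map (T.g c) (f x) = f' (L3.map (T.g c) x)) (z : C ⊗[ℂ] L3 M) :
    T.t3 (f.lTensor C z) = f' (T.t3 z) := by
  induction z using TensorProduct.induction_on with
  | zero => simp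
  | tmul c x => exact h c x
  | add x y hx hy => simp only [map_add, hx, hy]

variable {A : Type} [AddCommGroup A] [Module ℂ A] (ι : A →ₗ[ℂ] L3 M)

/-- The scalar extension of a subspace. -/
def io : C ⊗[ℂ] A →ₗ[ℂ] L3 M' := T.t3.comp (ι.lTensor C)

theorem io_tmul (c : C) (a : A) : T.io ι (c ⊗ₜ[ℂ] a) = L3.map (T.g c) (ι a) := rfl

variable {ι}

theorem io_inj (h : Function.Injective ι) : Function.Injective (T.io ι) :=
  T.t3_inj.comp (Module.Flat.lTensor_preserves_injective_linearMap _ h)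

variable {δ : Fin 3 → L3 M →ₗ[ℂ] L3 M} {δ' : Fin 3 → L3 M' →ₗ[ℂ] L3 M'}
  (h : ∀ a c x, L3.map (T.g c) (δ a x) = δ' a (L3.map (T.g c) x))

include h

theorem io_L (h0 : ∀ a x, δ a (ι x) = 0) (a : Fin 3) (z : C ⊗[ℂ] A) : δ' a (T.io ι z) = 0 := by
  induction z using TensorProduct.induction_on with
  | zero => simp
  | tmul c x => rw [io_tmul, ← h, h0, map_zero]
  | add x y hx hy => rw [map_add, map_add, hx, hy, add_zero]

theorem io_sur (h0 : ∀ a x, δ a (ι x) = 0) (h1 : ∀ y, (∀ a, δ a y = 0) → ∃ x, ι x = y)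
    (b : L3 M') (hb : ∀ a, δ' a b = 0) : ∃ z, T.io ι z = b := by
  obtain ⟨w, hw⟩ := T.t3_sur b
  have e : ∀ a, (δ a).lTensor C w = 0 := fun a =>
    T.t3_inj (by rw [T.t3_nat (h a), hw, hb, map_zero])
  have e2 : ∀ x, x ∈ LinearMap.range ι ↔ ∀ a, δ a x = 0 := fun x =>
    ⟨fun ⟨y, hy⟩ a => by rw [← hy, h0], h1 x⟩
  obtain ⟨v, hv⟩ := (lT_ker δ (LinearMap.range ι) e2 w).1 e
  obtain ⟨u, hu⟩ := LinearMap.lTensor_surjective C ι.surjective_rangeRestrict v
  refine ⟨u, ?_⟩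
  rw [← hw, ← hv, ← hu, lT_lT']
  rfl

omit h

theorem g_LB (κ : ℂ) (μ : Fin 3 → M) (a : Fin 3) (c : C) (x : L3 M) :
    L3.map (T.g c) (LB κ μ a x) = LB κ (fun b => T.β (μ b)) a (L3.map (T.g c) x) :=
  map_LB _ κ (fun b y => T.g_adj c (μ b) y) a x

end TQ

end

end Vale.Agent.P286E73
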