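import Vale.Agent.P286EI.L3

/-!
# Scalar extension of the ghost module and of joint kernels
-/

set_option linter.all false

namespace Vale.Agent.P286E73

open TensorProduct Vale.Agent.P286EI

noncomputable section

variable {C N N' : Type} [AddCommGroup C] [Module ℂ C] [AddCommGroup N] [Module ℂ N]
  [AddCommGroup N'] [Module ℂ N']

theorem lT_lT' {X Y Z : Type} [AddCommGroup X] [Module ℂ X] [AddCommGroup Y] [Module ℂ Y]
    [AddCommGroup Z] [Module ℂ Z] (f : X →ₗ[ℂ] Y) (g : Y →ₗ[ℂ] Z) (z : C ⊗[ℂ] X) :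
    g.lTensor C (f.lTensor C z) = (g.comp f).lTensor C z := by
  rw [LinearMap.lTensor_comp, LinearMap.comp_apply]

theorem lT_sum {κ : Type} (s : Finset κ) (f : κ → N →ₗ[ℂ] N') (z : C ⊗[ℂ] N) :
    (∑ c ∈ s, f c).lTensor C z = ∑ c ∈ s, (f c).lTensor C z := by
  rw [← LinearMap.sum_apply]
  exact congrArg (fun g => g z) (map_sum (LinearMap.lTensorHom C) f s)

theorem lT_inj (A : Submodule ℂ N) : Function.Injective (A.subtype.lTensor C) :=
  Module.Flat.lTensor_preserves_injective_linearMap _ A.injective_subtype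

/-- The scalar extension of a joint kernel is the joint kernel. -/
theorem lT_ker {κ : Type} [Fintype κ] [DecidableEq κ] (δ : κ → N →ₗ[ℂ] N') (A : Submodule ℂ N)
    (hA : ∀ x, x ∈ A ↔ ∀ c, δ c x = 0) (z : C ⊗[ℂ] N) :
    (∀ c, (δ c).lTensor C z = 0) ↔ ∃ w, A.subtype.lTensor C w = z := by
  constructor
  · intro h
    have e : Function.Exact A.subtype (LinearMap.pi δ) := fun x =>
      ⟨fun hx => ⟨⟨x, (hA x).2 fun c => congrFun hx c⟩, rfl⟩, fun ⟨y, hy⟩ =>
        funext fun c => hy ▸ (hA y).1 y.2 c⟩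
    refine (Module.Flat.lTensor_exact C e z).1 ?_
    have e2 : LinearMap.pi δ = ∑ c, (LinearMap.single ℂ (fun _ => N') c).comp (δ c) := by
      ext x c
      simp [Pi.single_apply]
    rw [e2, lT_sum]
    exact Finset.sum_eq_zero fun c _ => by rw [← lT_lT', h c, map_zero]
  · rintro ⟨w, rfl⟩ c
    rw [lT_lT', show (δ c).comp A.subtype = 0 from LinearMap.ext fun x => (hA x).1 x.2 c,
      LinearMap.lTensor_zero, LinearMap.zero_apply]

/-- The componentwise extension of a bilinear map. -/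
def ten (f : C ⊗[ℂ] N →ₗ[ℂ] N') : C ⊗[ℂ] L3 N →ₗ[ℂ] L3 N' :=
  L3.mkL (f.comp ((L3.ps ℂ N).lTensor C)) (fun a => f.comp ((L3.pv ℂ N a).lTensor C))
    (fun a => f.comp ((L3.pw ℂ N a).lTensor C)) (f.comp ((L3.pt ℂ N).lTensor C))

theorem ten_tmul (f : C ⊗[ℂ] N →ₗ[ℂ] N') (c : C) (x : L3 N) :
    ten f (c ⊗ₜ[ℂ] x) = L3.map (f.comp (TensorProduct.mk ℂ C N c)) x := rfl

variable (N) in
/-- The coefficient of `i_S`. -/
def pc (S : Finset (Fin 3)) : L3 N →ₗ[ℂ] N := (LinearMap.proj S).comp (L3.co ℂ N).toLinearMap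

variable (N) in
/-- The map `z ↦ z i_S`. -/
def ic (S : Finset (Fin 3)) : N →ₗ[ℂ] L3 N :=
  (L3.co ℂ N).symm.toLinearMap.comp (LinearMap.single ℂ (fun _ => N) S)

theorem ic_apply (S : Finset (Fin 3)) (z : N) : ic N S z = L3.sgl ℂ S z := rfl

theorem sum_ic (x : L3 N) : ∑ S, ic N S (pc N S x) = x := by
  apply (L3.co ℂ N).injective
  rw [map_sum]
  simp only [ic, pc, LinearMap.comp_apply, LinearEquiv.coe_coe, LinearEquiv.apply_symm_apply]
  exact Finset.univ_sum_single _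

theorem pc_map (g : N →ₗ[ℂ] N') (S : Finset (Fin 3)) (x : L3 N) :
    pc N' S (L3.map g x) = g (pc N S x) := by
  show L3.co ℂ N' (L3.map g x) S = g (L3.co ℂ N x S)
  simp only [L3.co, LinearEquiv.coe_mk, LinearMap.coe_mk, AddHom.coe_mk]
  split_ifs <;> simp [L3.map_apply]

theorem pc_ten (f : C ⊗[ℂ] N →ₗ[ℂ] N') (S : Finset (Fin 3)) (z : C ⊗[ℂ] L3 N) :
    pc N' S (ten f z) = f ((pc N S).lTensor C z) := by
  induction z using TensorProduct.induction_on with
  | zero => simp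
  | tmul c x => rw [ten_tmul, pc_map]; rfl
  | add x y hx hy => simp only [map_add, hx, hy]

theorem ten_ic (f : C ⊗[ℂ] N →ₗ[ℂ] N') (S : Finset (Fin 3)) (z : C ⊗[ℂ] N) :
    ten f ((ic N S).lTensor C z) = ic N' S (f z) := by
  induction z using TensorProduct.induction_on with
  | zero => simp
  | tmul c x => rw [LinearMap.lTensor_tmul, ten_tmul, ic_apply, L3.map_sgl]; rfl
  | add x y hx hy => simp only [map_add, hx, hy]

theorem ten_inj {f : C ⊗[ℂ] N →ₗ[ℂ] N'} (h : Function.Injective f) :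
    Function.Injective (ten f) := by
  rw [injective_iff_map_eq_zero]
  intro z hz
  have e : (LinearMap.id : L3 N →ₗ[ℂ] L3 N) = ∑ S, (ic N S).comp (pc N S) :=
    LinearMap.ext fun x => by rw [LinearMap.sum_apply]; exact (sum_ic x).symm
  rw [← LinearMap.id_apply (R := ℂ) z, ← LinearMap.lTensor_id, e, lT_sum]
  refine Finset.sum_eq_zero fun S _ => ?_
  rw [← lT_lT', h ((pc_ten f S z).symm.trans (by rw [hz, map_zero, map_zero])), map_zero]

theorem ten_sur {f : C ⊗[ℂ] N →ₗ[ℂ] N'} (h : Function.Surjective f) :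
    Function.Surjective (ten f) := fun y => by
  choose w hw using h
  exact ⟨∑ S, (ic N S).lTensor C (w (pc N' S y)), by simp only [map_sum, ten_ic, hw, sum_ic]⟩

end

end Vale.Agent.P286E73
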