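import Vale.Agent.P286E73.Tn
import Vale.Agent.P286E73.Lt

/-!
# Matrices of differential operators on a product
-/

set_option linter.all false

namespace Vale.Agent.P286E73

open TensorProduct Vale.Agent.P286EI Vale.Agent.P286E48

noncomputable section

/-- A decomposition `M' = C ⊗ M` of algebras. -/
structure TQ (C M M' : Type) [Ring C] [Algebra ℂ C] [Ring M] [Algebra ℂ M] [Ring M']
    [Algebra ℂ M'] where
  α : C →ₐ[ℂ] M'
  β : M →ₐ[ℂ] M'
  comm : ∀ c x, α c * β x = β x * α c
  bij : Function.Bijective (Algebra.TensorProduct.lift α β comm)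

namespace TQ

variable {C M M' : Type} [Ring C] [Algebra ℂ C] [Ring M] [Algebra ℂ M] [Ring M'] [Algebra ℂ M']
  (T : TQ C M M')

/-- The product map. -/
def μ : C ⊗[ℂ] M →ₐ[ℂ] M' := Algebra.TensorProduct.lift T.α T.β T.comm

theorem μ_tmul (c : C) (x : M) : T.μ (c ⊗ₜ[ℂ] x) = T.α c * T.β x := rfl

theorem μ_bij : Function.Bijective T.μ := T.bij

variable (n : Type) [Fintype n] [DecidableEq n]

/-- The scalar matrices. -/
def mα : C →ₐ[ℂ] Matrix n n M' := (Matrix.scalarAlgHom n ℂ).comp T.α

variable {n}

theorem mα_apply (c : C) : T.mα n c = Matrix.diagonal fun _ => T.α c := rfl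

theorem mα_mul (c : C) (x : Matrix n n M') (k l : n) : (T.mα n c * x) k l = T.α c * x k l := by
  rw [mα_apply, Matrix.diagonal_mul]

theorem mul_mα (c : C) (x : Matrix n n M') (k l : n) : (x * T.mα n c) k l = x k l * T.α c := by
  rw [mα_apply, Matrix.mul_diagonal]

theorem m_comm (c : C) (x : Matrix n n M) :
    T.mα n c * T.β.mapMatrix x = T.β.mapMatrix x * T.mα n c :=
  Matrix.ext fun k l => by rw [mα_mul, mul_mα]; exact T.comm c _

theorem m_ent (z : C ⊗[ℂ] Matrix n n M) (k l : n) :
    Algebra.TensorProduct.lift (T.mα n) T.β.mapMatrix T.m_comm z k l =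
      T.μ ((Matrix.entryLinearMap ℂ M k l).lTensor C z) := by
  induction z using TensorProduct.induction_on with
  | zero => simp
  | tmul c x => exact T.mα_mul c _ k l
  | add x y hx hy => simp only [map_add, Matrix.add_apply, hx, hy]

theorem m_sgl (z : C ⊗[ℂ] M) (k l : n) :
    Algebra.TensorProduct.lift (T.mα n) T.β.mapMatrix T.m_comm
      ((Matrix.singleLinearMap ℂ k l).lTensor C z) = Matrix.single k l (T.μ z) := by
  induction z using TensorProduct.induction_on with
  | zero => simp
  | tmul c x =>
    refine Matrix.ext fun a b => (T.mα_mul c _ a b).trans ?_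
    show T.α c * T.β (Matrix.single k l x a b) = Matrix.single k l (T.α c * T.β x) a b
    simp only [Matrix.single_apply]
    split_ifs <;> simp
  | add x y hx hy => simp only [map_add, Matrix.single_add, hx, hy]

variable (n) in
/-- The decomposition of the matrix algebra. -/
def mat : TQ C (Matrix n n M) (Matrix n n M') where
  α := T.mα n
  β := T.β.mapMatrix
  comm := T.m_comm
  bij := by
    constructor
    · rw [injective_iff_map_eq_zero]
      intro z hz
      have e : (LinearMap.id : Matrix n n M →ₗ[ℂ] Matrix n n M) = ∑ k, ∑ l,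
          (Matrix.singleLinearMap ℂ k l).comp (Matrix.entryLinearMap ℂ M k l) :=
        LinearMap.ext fun x => by
          simp only [LinearMap.sum_apply]
          exact Matrix.matrix_eq_sum_single x
      rw [← LinearMap.id_apply (R := ℂ) z, ← LinearMap.lTensor_id, e, lT_sum]
      refine Finset.sum_eq_zero fun k _ => ?_
      rw [lT_sum]
      refine Finset.sum_eq_zero fun l _ => ?_
      rw [← lT_lT', T.μ_bij.1 ((T.m_ent z k l).symm.trans (by rw [hz, map_zero]; rfl)), map_zero]
    · intro y
      choose w hw using T.μ_bij.2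
      refine ⟨∑ k, ∑ l, (Matrix.singleLinearMap ℂ k l).lTensor C (w (y k l)), ?_⟩
      simp only [map_sum, m_sgl, hw]
      exact (Matrix.matrix_eq_sum_single y).symm

theorem mat_α (c : C) : (T.mat n).α c = Matrix.diagonal fun _ => T.α c := rfl

theorem mat_β (x : Matrix n n M) : (T.mat n).β x = x.map T.β := rfl

end TQ

variable (ι : Type) {B : Type} [CommRing B] [Algebra ℂ B] [DecidableEq ι]
  (pd : Derivation ℂ B B)

/-- The decomposition of the operators on the product. -/
def tdW : TQ (DC pd) (D0 ι) (DW ι pd) := ⟨jC ι pd, jD ι pd, jC_jD, (jE ι pd).bijective⟩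

end

end Vale.Agent.P286E73
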