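import Vale.Agent.P286E73.Ia

/-!
# The chart algebra as the algebra of the invariant matrices of differential operators
-/

set_option linter.all false

namespace Vale.Agent.P286E73

open CategoryTheory TensorProduct Vale.Agent.P286EI Vale.Agent.P286EL Vale.Agent.P286E48
  Vale.Agent.P286E Vale.Agent.P286EU Vale.Agent.P286EX

noncomputable section

variable {n : Type} [Fintype n] [DecidableEq n]

/-- The moment map over the Weyl algebra. -/
abbrev m0 (κ : ℂ) (r : Fin 3 → Matrix n n ℂ) (a : Fin 3) : Matrix n n (D0 (Fin 3)) :=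
  -MU (mu κ x0 d0) r a

/-- The moment map over the operators of a chart. -/
abbrev mW {B : Type} [CommRing B] [Algebra ℂ B] (pd : Derivation ℂ B B) (κ : ℂ)
    (r : Fin 3 → Matrix n n ℂ) (a : Fin 3) : Matrix n n (DW (Fin 3) pd) := -MU (muW pd κ) r a

theorem tdM_m {B : Type} [CommRing B] [Algebra ℂ B] (pd : Derivation ℂ B B) (κ : ℂ)
    (r : Fin 3 → Matrix n n ℂ) (a : Fin 3) : (tdM (Fin 3) n pd).β (m0 κ r a) = mW pd κ r a := by
  rw [map_neg, tdM_β, map_MU]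
  simp only [map_mu, jD_x, jD_d]

/-- The weighted algebra is the algebra of the invariants. -/
structure WI (κ : ℂ) (r : Fin 3 → Matrix n n ℂ) (W : WA) where
  ι : W.A.R →ₐ[ℂ] L3 (Matrix n n (D0 (Fin 3)))
  inj : Function.Injective ι
  inv : ∀ a, Inv κ (m0 κ r) (ι a)
  sur : ∀ y, Inv κ (m0 κ r) y → ∃ a, ι a = y
  d : ∀ a, ι (W.A.d a) = dL κ (fun c => L3.rm _ (m0 κ r c)) (ι a)
  gr : ∀ m, ∀ a ∈ W.A.gr m, ι a ∈ L3.gr ℂ _ m
  E : ι W.E = L3.inl ℂ _ (Matrix.diagonal fun _ => E0 (Fin 3))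
  q : ι W.q = L3.inl ℂ _ (Matrix.diagonal fun _ => ∑ a, x0 a * x0 a)

namespace WI

variable {κ : ℂ} {r : Fin 3 → Matrix n n ℂ} {W : WA} (h : WI κ r W) {I : Type} [SmallCategory I]
  {D : CD I} (V : VF D)

theorem wt {k : ℤ} {a : W.A.R} (ha : a ∈ wt W.E k) :
    h.ι a ∈ wt (L3.inl ℂ _ (Matrix.diagonal fun _ : n => E0 (Fin 3))) k :=
  wt_map h.ι.toLinearMap (fun x => by
    rw [AlgHom.toLinearMap_apply, AlgHom.toLinearMap_apply, map_sub, map_mul, map_mul, h.E]) ha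

/-- The homomorphism to the matrices of differential operators. -/
def io (i : I) : Dp V i ⊗[ℂ] W.A.R →ₐ[ℂ] L3 (Matrix n n (DW (Fin 3) (V.pd i))) :=
  (tdM (Fin 3) n (V.pd i)).ia h.ι

variable (i : I)

theorem io_tmul (c : Dp V i) (a : W.A.R) :
    h.io V i (c ⊗ₜ[ℂ] a) = L3.map ((tdM (Fin 3) n (V.pd i)).g c) (h.ι a) := TQ.ia_tmul _ _ c a

theorem io_one : h.io V i 1 = L3.inl ℂ _ 1 := map_one _

theorem io_inj : Function.Injective (h.io V i) := TQ.ia_inj _ h.inj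

theorem io_d (z : Dp V i ⊗[ℂ] W.A.R) : h.io V i ((TA (Dp V i) W.A).d z) =
    dL κ (fun c => L3.rm _ (mW (V.pd i) κ r c)) (h.io V i z) :=
  TQ.ia_nat _ h.d (TQ.g_dL _ (tdM_m (V.pd i) κ r)) z

theorem io_gr (m : ℤ) (z : Dp V i ⊗[ℂ] W.A.R) (hz : z ∈ (TA (Dp V i) W.A).gr m) :
    h.io V i z ∈ L3.gr ℂ _ m :=
  tg_ind (Q := fun z => h.io V i z ∈ L3.gr ℂ _ m) (by rw [map_zero]; exact zero_mem _)
    (fun c a ha => by rw [io_tmul]; exact L3.map_mem _ (h.gr m a ha))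
    (fun x y hx hy => by rw [map_add]; exact add_mem hx hy) hz

theorem io_inv (z : Dp V i ⊗[ℂ] W.A.R) : Inv κ (mW (V.pd i) κ r) (h.io V i z) :=
  TQ.ia_inv _ (tdM_m (V.pd i) κ r) h.inv z

theorem io_sur (b : L3 (Matrix n n (DW (Fin 3) (V.pd i)))) (hb : Inv κ (mW (V.pd i) κ r) b) :
    ∃ z, h.io V i z = b := TQ.ia_sur _ (tdM_m (V.pd i) κ r) h.inv h.sur b hb

theorem io_L (a : Fin 3) (z : Dp V i ⊗[ℂ] W.A.R) :
    L3.map (adj (MU (muW (V.pd i) κ) r a)) (h.io V i z) + κ • L3.ad ℂ _ a (h.io V i z) = 0 :=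
  inv_neg.1 (h.io_inv V i z) a

theorem io_sur' (b : L3 (Matrix n n (DW (Fin 3) (V.pd i))))
    (hb : ∀ a, L3.map (adj (MU (muW (V.pd i) κ) r a)) b + κ • L3.ad ℂ _ a b = 0) :
    ∃ z, h.io V i z = b := h.io_sur V i b (inv_neg.2 hb)

theorem io_cf (z : D.C i) :
    h.io V i (fz V W i z) = L3.inl ℂ _ (Matrix.diagonal fun _ => DW.cf (Fin 3) (V.pd i) z) :=
  (TQ.ia_left _ _ _).trans (congrArg _ (tdM_of z))

theorem io_q : h.io V i (1 ⊗ₜ[ℂ] W.q) =
    L3.inl ℂ _ (Matrix.diagonal fun _ => ∑ a, DW.y (V.pd i) a * DW.y (V.pd i) a) := by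
  refine (TQ.ia_inl _ _ _ h.q).trans (congrArg _ ?_)
  rw [map_one, one_mul, tdM_diag]
  simp only [map_sum, map_mul, jD_x]

theorem io_F : h.io V i (chF V W i).x =
    L3.inl ℂ _ (Matrix.diagonal fun _ => DO.of (wd (Fin 3) (V.pd i)) (FF D i)) := by
  rw [chF_x, map_sub, io_q, io_cf, ← map_sub, Matrix.diagonal_sub, of_FF]

variable {i} {j : I} (lam : ℂ) (α : i ⟶ j)

/-- The compatibility with the transition maps. -/
theorem io_ta (t : DW.Tr (Fin 3) (V.pd i) (V.pd j)) (h1 : t.κ = D.κ α) (h2 : t.c = P286E48.cu α)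
    (h3 : t.g = 1) (h4 : t.l = lam • V.lr α) (z : Dp V i ⊗[ℂ] W.A.R) :
    h.io V j (ta V lam W α z) = L3.map (DW.map t).mapMatrix.toLinearMap (h.io V i z) := by
  have e : ∀ (k : I) (c : Dp V k), h.io V k (c ⊗ₜ[ℂ] 1) =
      L3.inA _ ((tdM (Fin 3) n (V.pd k)).α c) := fun k c => TQ.ia_left _ _ c
  have e' : ∀ x, L3.mapA (DW.map t).mapMatrix (L3.inA _ x) =
      L3.inA _ ((DW.map t).mapMatrix x : Matrix n n _) := fun x => L3.map_inl _ x
  refine lift_ta V lam W α (h.io V i) (h.io V j) (L3.mapA (DW.map t).mapMatrix) (fun z => ?_) ?_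
    (fun k a ha => ?_) z
  · rw [e, e, e', ← h1]
    exact congrArg _ (mm_of t z)
  · have e2 : h.io V j (fo V j (V.lc α) ⊗ₜ[ℂ] W.E) = L3.inA _ _ := TQ.ia_inl _ _ _ h.E
    rw [e, e, e, e, e', e2, ← map_sub, ← map_add, ← map_mul, ← lg_cu, ← h2, ← h4, ci, ← h2]
    exact congrArg _ (mm_D t)
  · rw [io_tmul, io_tmul, ← h2]
    exact (map_map3 _ _ _).trans (map_wt (fun x hx =>
      (congrArg _ (TQ.g_one _ x)).trans (mm_β t h3 hx)) (h.wt ha))

theorem io_tau (z : ((Ch V lam W).A i).R) : h.io V j (((Ch V lam W).τ α).f z) =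
    L3.map (DW.map (trA V lam (Fin 3) α)).mapMatrix.toLinearMap (h.io V i z) :=
  h.io_ta V lam α _ rfl rfl rfl rfl z

end WI

end

end Vale.Agent.P286E73
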