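import Vale.Agent.P286E73.Mt
import Vale.Agent.P286E48.Ch

/-!
# Homomorphisms out of the chart algebras and the transition maps
-/

set_option linter.all false

namespace Vale.Agent.P286E73

open CategoryTheory TensorProduct Vale.Agent.P286EI Vale.Agent.P286E48 Vale.Agent.P286E
  Vale.Agent.P286EU

noncomputable section

section Mat

variable {ι n B B' : Type} [CommRing B] [Algebra ℂ B] [CommRing B'] [Algebra ℂ B'] [DecidableEq ι]
  [Fintype ι] [Fintype n] [DecidableEq n] {pd : Derivation ℂ B B} {pd' : Derivation ℂ B' B'}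

theorem ent_wt {R : Type} [Ring R] [Algebra ℂ R] {E : R} {k : ℤ} {x : Matrix n n R}
    (h : x ∈ wt (Matrix.diagonal fun _ : n => E) k) (a b : n) : x a b ∈ wt E k :=
  wt_map (Matrix.entryLinearMap ℂ R a b) (fun y => by
    show (_ * y - y * _ : Matrix n n R) a b = E * y a b - y a b * E
    rw [Matrix.sub_apply, Matrix.diagonal_mul, Matrix.mul_diagonal]) h

variable (ι n pd) in
/-- The decomposition of the matrices of operators on the product. -/
abbrev tdM : TQ (DC pd) (Matrix n n (D0 ι)) (Matrix n n (DW ι pd)) := (tdW ι pd).mat n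

theorem tdM_of (z : B) :
    (tdM ι n pd).α (DO.of _ z) = Matrix.diagonal fun _ => DW.cf ι pd z :=
  congrArg (fun w => Matrix.diagonal fun _ : n => w) (jC_of z)

theorem tdM_D : (tdM ι n pd).α (DO.D _ ()) = Matrix.diagonal fun _ => DW.du ι pd :=
  congrArg (fun w => Matrix.diagonal fun _ : n => w) jC_D

theorem tdM_β (x : Matrix n n (D0 ι)) : (tdM ι n pd).β x = x.map (jD ι pd) := rfl

theorem tdM_diag (x : D0 ι) :
    (tdM ι n pd).β (Matrix.diagonal fun _ => x) = Matrix.diagonal fun _ => jD ι pd x :=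
  Matrix.diagonal_map (map_zero _)

theorem mm_diag {R S : Type} [Ring R] [Algebra ℂ R] [Ring S] [Algebra ℂ S] (f : R →ₐ[ℂ] S) (x : R) :
    f.mapMatrix (Matrix.diagonal fun _ : n => x) = Matrix.diagonal fun _ => f x :=
  Matrix.diagonal_map (map_zero _)

theorem mm_of (t : DW.Tr ι pd pd') (z : B) :
    (DW.map t).mapMatrix ((tdM ι n pd).α (DO.of _ z)) = (tdM ι n pd').α (DO.of _ (t.κ z)) := by
  rw [tdM_of, tdM_of, mm_diag, DW.map_cf]

theorem mm_D (t : DW.Tr ι pd pd') : (DW.map t).mapMatrix ((tdM ι n pd).α (DO.D _ ())) =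
    (tdM ι n pd').α (DO.of _ ((t.c⁻¹ : B'ˣ) : B')) * ((tdM ι n pd').α (DO.D _ ()) -
      (tdM ι n pd').α (DO.of _ (DW.lg pd' t.c)) *
        (tdM ι n pd').β (Matrix.diagonal fun _ => E0 ι) + (tdM ι n pd').α (DO.of _ t.l)) := by
  rw [tdM_D, tdM_D, tdM_of, tdM_of, tdM_of, tdM_diag, mm_diag, DW.map_du, jD_E0, DW.tu,
    Matrix.diagonal_mul_diagonal, Matrix.diagonal_sub, Matrix.diagonal_add,
    Matrix.diagonal_mul_diagonal]

theorem mm_β (t : DW.Tr ι pd pd') (hg : t.g = 1) {k : ℤ} {x : Matrix n n (D0 ι)}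
    (hx : x ∈ wt (Matrix.diagonal fun _ : n => E0 ι) k) :
    (DW.map t).mapMatrix ((tdM ι n pd).β x) =
      (tdM ι n pd').α (DO.of _ ((t.c ^ k : B'ˣ) : B')) * (tdM ι n pd').β x :=
  Matrix.ext fun a b => by
    rw [tdM_of, Matrix.diagonal_mul]
    exact map_jD t hg (ent_wt hx a b)

end Mat

variable {I : Type} [SmallCategory I] {D : CD I} (V : VF D) (lam : ℂ) (W : WA)

/-- The compatibility of a pair of homomorphisms with a transition map. -/
theorem lift_ta {i j : I} (α : i ⟶ j) {R S : Type} [Ring R] [Algebra ℂ R] [Ring S] [Algebra ℂ S]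
    (φ : Dp V i ⊗[ℂ] W.A.R →ₐ[ℂ] R) (φ' : Dp V j ⊗[ℂ] W.A.R →ₐ[ℂ] S) (ψ : R →ₐ[ℂ] S)
    (h0 : ∀ z, ψ (φ (fo V i z ⊗ₜ[ℂ] 1)) = φ' (fo V j (D.κ α z) ⊗ₜ[ℂ] 1))
    (h1 : ψ (φ (pp V i ⊗ₜ[ℂ] 1)) = φ' (fo V j (ci α) ⊗ₜ[ℂ] 1) * (φ' (pp V j ⊗ₜ[ℂ] 1) -
      φ' (fo V j (V.lc α) ⊗ₜ[ℂ] W.E) + φ' (fo V j (lam • V.lr α) ⊗ₜ[ℂ] 1)))
    (h2 : ∀ k, ∀ a ∈ wt W.E k, ψ (φ (1 ⊗ₜ[ℂ] a)) =
      φ' (fo V j ((P286E48.cu α ^ k : (D.C j)ˣ) : D.C j) ⊗ₜ[ℂ] a)) (z : Dp V i ⊗[ℂ] W.A.R) :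
    φ' (ta V lam W α z) = ψ (φ z) :=
  AlgHom.congr_fun (ch_ext V W (φ := φ'.comp (ta V lam W α)) (ψ := ψ.comp φ)
    (fun z => (congrArg φ' (ta_fz V lam W α z)).trans (h0 z).symm)
    ((congrArg φ' (ta_pp V lam W α)).trans (by
      rw [tp_def, map_mul, map_add, map_sub]; exact h1.symm))
    fun k a ha => (congrArg φ' (ta_one V lam W α ha)).trans (h2 k a ha).symm) z

theorem lg_cu {i j : I} (α : i ⟶ j) : DW.lg (V.pd j) (P286E48.cu α) = V.lc α :=
  (P286E48.cu α).isUnit.mul_left_cancel ((DW.mul_lg _).trans (V.mul_lc α).symm)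

variable (ι : Type) [DecidableEq ι] [Fintype ι]

/-- The change of coordinates along an arrow. -/
def trA {i j : I} (α : i ⟶ j) : DW.Tr ι (V.pd i) (V.pd j) where
  κ := D.κ α
  c := P286E48.cu α
  g := 1
  l := lam • V.lr α
  hκ := V.pd_κ α
  og := by rw [Matrix.transpose_one, mul_one]
  pg a b := by
    rw [Matrix.one_apply]
    split_ifs
    exacts [Derivation.map_one_eq_zero _, map_zero _]

end

end Vale.Agent.P286E73
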