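import Vale.Agent.P286E73.Fl0
import Vale.Agent.P286EX7.Br2

/-!
# The algebra of the invariants
-/

set_option linter.all false

namespace Vale.Agent.P286E73

open Vale.Agent.P286EI Vale.Agent.P286EL Vale.Agent.P286EX Vale.Agent.P286E

noncomputable section

/-- The invariant matrices. -/
def wiM {n : Type} [Fintype n] [DecidableEq n] (κ : ℂ) (r : Fin 3 → Matrix n n ℂ) (hr : Br κ r) :
    WI κ r (AM κ r hr) where
  ι := (bdM κ r hr).ι
  inj := (bdM κ r hr).ι_inj
  inv := (bdM κ r hr).ι_inv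
  sur y hy := ⟨(bdM κ r hr).mkA y ((bdM κ r hr).mem_S'.2 hy), rfl⟩
  d _ := rfl
  gr _ _ h := h
  E := rfl
  q := rfl

/-- The invariant matrices of a representation. -/
def wiU {G : Grp} {K : GK G} (U : Rep K) : WI K.κ U.dr (AU U) := wiM K.κ U.dr U.dr_br

end

end Vale.Agent.P286E73
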